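import Vale.Agent.P032.Main
import Mathlib.Analysis.InnerProductSpace.PiL2

/-!
Every colouring of the Euclidean plane by five classes with the Baire property puts two points at
unit distance in the same class.
-/

namespace Vale.Agent.Results.P032.BaireChromatic

theorem result :
    ¬ ∃ f : EuclideanSpace ℝ (Fin 2) → Fin 5,
      (∀ x y, dist x y = 1 → f x ≠ f y) ∧ ∀ i, BaireMeasurableSet (f ⁻¹' {i}) := by
  rintro ⟨f, hf, hB⟩
  let e := Complex.orthonormalBasisOneI.repr
  refine Vale.Agent.P032.no_baire_five (f ∘ e) (fun x y hxy => hf _ _ ?_)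
    (fun c => (hB c).preimage e.continuous e.toHomeomorph.isOpenMap)
  rw [e.isometry.dist_eq, dist_eq_norm, norm_sub_rev]
  exact hxy

end Vale.Agent.Results.P032.BaireChromatic
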