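import Vale.Agent.P032.MeasConfig
import Vale.Agent.P032.Main
import Mathlib.Analysis.InnerProductSpace.PiL2
import Mathlib.MeasureTheory.Measure.Haar.InnerProductSpace

/-!
Every colouring of the Euclidean plane by five Lebesgue measurable classes puts two points at
unit distance in the same class.
-/

open MeasureTheory

namespace Vale.Agent.Results.P032.MeasurableChromatic

theorem result :
    ¬ ∃ f : EuclideanSpace ℝ (Fin 2) → Fin 5,
      (∀ x y, dist x y = 1 → f x ≠ f y) ∧ ∀ i, NullMeasurableSet (f ⁻¹' {i}) volume := by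
  rintro ⟨f, hf, hm⟩
  let e := Complex.orthonormalBasisOneI.repr
  obtain ⟨K, h1, h2, h3, h4⟩ := Vale.Agent.P032.exists_closed_cover (f ∘ e) (fun x y hxy => hf _ _
    (by rw [e.isometry.dist_eq, dist_eq_norm, norm_sub_rev]; exact hxy))
    (fun c => (hm c).preimage e.measurePreserving.quasiMeasurePreserving)
  exact Vale.Agent.P032.Config.false (K := K) ⟨h1, h2, h3, h4⟩

end Vale.Agent.Results.P032.MeasurableChromatic
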